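import Vale.Agent.P125.Defs

/-!
A one-scale gain for martingales multiplies along powers of the scale.
-/

namespace Vale.Agent.P125

open scoped BigOperators
open Real

universe u

variable {X : Type u} [NormedAddCommGroup X] [NormedSpace ℝ X]

theorem Mart.cost_nonneg (p : ℝ) : ∀ {n : ℕ} (M : Mart X n), 0 ≤ M.cost p
  | _, .nil => le_refl _
  | _, .node _ w d hw _ _ child => by
      simp only [Mart.cost]
      exact Finset.sum_nonneg fun i _ => mul_nonneg (hw i)
        (add_nonneg (rpow_nonneg (norm_nonneg _) _) (Mart.cost_nonneg p (child i)))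

theorem Gain.mono {p : ℝ} {n : ℕ} {γ γ' : ℝ} (h : Gain X p n γ) (hle : γ ≤ γ') :
    Gain X p n γ' := fun M =>
  (h M).trans (mul_le_mul_of_nonneg_right
    (mul_le_mul_of_nonneg_right hle (rpow_nonneg (Nat.cast_nonneg _) _)) (M.cost_nonneg p))

/-- A trivial step in front of a martingale. -/
def Mart.pad {n : ℕ} (M : Mart X n) : Mart X (n + 1) :=
  .node 1 (fun _ => 1) (fun _ => 0) (fun _ => zero_le_one) (by simp) (by simp) (fun _ => M)

theorem Mart.sumPow_pad (p : ℝ) {n : ℕ} (M : Mart X n) (x : X) :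
    M.pad.sumPow p x = M.sumPow p x := by simp [Mart.pad, Mart.sumPow]

theorem Mart.cost_pad {p : ℝ} (hp : p ≠ 0) {n : ℕ} (M : Mart X n) :
    M.pad.cost p = M.cost p := by simp [Mart.pad, Mart.cost, Real.zero_rpow hp]

theorem Mart.exists_pad {p : ℝ} (hp : p ≠ 0) {L N : ℕ} (h : L ≤ N) (M : Mart X L) :
    ∃ M' : Mart X N, (∀ x, M'.sumPow p x = M.sumPow p x) ∧ M'.cost p = M.cost p := by
  induction h with
  | refl => exact ⟨M, fun _ => rfl, rfl⟩
  | step _ ih =>
    obtain ⟨M', h1, h2⟩ := ih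
    exact ⟨M'.pad, fun x => (M'.sumPow_pad p x).trans (h1 x), (M'.cost_pad hp).trans h2⟩

/-- Cutting a martingale after its first `a` steps. -/
theorem Mart.exists_split (p : ℝ) : ∀ (a m : ℕ) (M : Mart X (m + a)),
    ∃ (pre : Mart X a) (r : ℕ) (w : Fin r → ℝ) (d : Fin r → X) (child : Fin r → Mart X m),
      (∀ k, 0 ≤ w k) ∧ ∑ k, w k = 1 ∧ ∑ k, w k • d k = 0 ∧
      (∀ x, M.sumPow p x = ∑ k, w k * (child k).sumPow p (x + d k)) ∧
      (∀ x, pre.sumPow p x = ∑ k, w k * ‖x + d k‖ ^ p) ∧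
      M.cost p = pre.cost p + ∑ k, w k * (child k).cost p := by
  intro a
  induction a with
  | zero =>
    intro m M
    refine ⟨.nil, 1, fun _ => 1, fun _ => 0, fun _ => M, fun _ => zero_le_one, by simp, by simp,
      fun x => by simp, fun x => by simp [Mart.sumPow], by simp [Mart.cost]⟩
  | succ a ih =>
    intro m M
    cases M with
    | node r w d hw hw1 hd child =>
      choose pre r' w' d' child' h0 h1 h2 h3 h4 h5 using fun i => ih m (child i)
      let e : (Σ i : Fin r, Fin (r' i)) ≃ Fin (∑ i, r' i) := finSigmaFinEquiv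
      have key : ∀ {G : Type u} [AddCommMonoid G] (φ : (Σ i : Fin r, Fin (r' i)) → G),
          ∑ k, φ (e.symm k) = ∑ i, ∑ j, φ ⟨i, j⟩ := by
        intro G _ φ
        rw [e.symm.sum_comp φ, ← Finset.univ_sigma_univ, Finset.sum_sigma]
      have keyR : ∀ φ : (Σ i : Fin r, Fin (r' i)) → ℝ,
          ∑ k, φ (e.symm k) = ∑ i, ∑ j, φ ⟨i, j⟩ := by
        intro φ
        rw [e.symm.sum_comp φ, ← Finset.univ_sigma_univ, Finset.sum_sigma]
      refine ⟨.node r w d hw hw1 hd pre, ∑ i, r' i,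
        fun k => w (e.symm k).1 * w' (e.symm k).1 (e.symm k).2,
        fun k => d (e.symm k).1 + d' (e.symm k).1 (e.symm k).2,
        fun k => child' (e.symm k).1 (e.symm k).2,
        fun k => mul_nonneg (hw _) (h0 _ _), ?_, ?_, ?_, ?_, ?_⟩
      · rw [keyR fun k => w k.1 * w' k.1 k.2]
        simp [← Finset.mul_sum, h1, hw1]
      · rw [key fun k => (w k.1 * w' k.1 k.2) • (d k.1 + d' k.1 k.2)]
        simp [smul_add, Finset.sum_add_distrib, mul_smul, ← Finset.smul_sum, ← Finset.sum_smul,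
          h1, h2, hd]
      · intro x
        rw [keyR fun k => w k.1 * w' k.1 k.2 * (child' k.1 k.2).sumPow p (x + (d k.1 + d' k.1 k.2))]
        simp [Mart.sumPow, h3, Finset.mul_sum, mul_assoc, add_assoc]
      · intro x
        rw [keyR fun k => w k.1 * w' k.1 k.2 * ‖x + (d k.1 + d' k.1 k.2)‖ ^ p]
        simp [Mart.sumPow, h4, Finset.mul_sum, mul_assoc, add_assoc]
      · rw [keyR fun k => w k.1 * w' k.1 k.2 * (child' k.1 k.2).cost p]
        simp [Mart.cost, h5, mul_add, Finset.mul_sum, mul_assoc, Finset.sum_add_distrib,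
          add_assoc]

theorem Mart.exists_coarse {p : ℝ} {a : ℕ} {γ : ℝ} (hγ : 0 ≤ γ) (ha : Gain X p a γ) :
    ∀ (b : ℕ) (M : Mart X (a * b)), ∃ C : Mart X b,
      (∀ x, C.sumPow p x = M.sumPow p x) ∧
      C.cost p ≤ γ * (a : ℝ) ^ (p - 1) * M.cost p := by
  intro b
  induction b with
  | zero =>
    intro M
    refine ⟨.nil, fun x => ?_, ?_⟩
    · match M with
      | .nil => rfl
    · simpa [Mart.cost] using mul_nonneg (mul_nonneg hγ (rpow_nonneg (Nat.cast_nonneg a) _))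
        (M.cost_nonneg p)
  | succ b ih =>
    intro M
    obtain ⟨pre, r, w, d, child, hw, hw1, hd, h3, h4, h5⟩ := Mart.exists_split p a (a * b) M
    choose C hC1 hC2 using fun k => ih (child k)
    refine ⟨.node r w d hw hw1 hd C, fun x => by simp [Mart.sumPow, hC1, h3], ?_⟩
    have hg := ha pre
    rw [h4] at hg
    simp only [zero_add] at hg
    calc (Mart.node r w d hw hw1 hd C).cost p
        = ∑ k, w k * ‖d k‖ ^ p + ∑ k, w k * (C k).cost p := by
          simp [Mart.cost, mul_add, Finset.sum_add_distrib]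
      _ ≤ γ * (a : ℝ) ^ (p - 1) * pre.cost p +
          ∑ k, w k * (γ * (a : ℝ) ^ (p - 1) * (child k).cost p) :=
          add_le_add hg (Finset.sum_le_sum fun k _ => mul_le_mul_of_nonneg_left (hC2 k) (hw k))
      _ = γ * (a : ℝ) ^ (p - 1) * M.cost p := by
          rw [h5, mul_add, Finset.mul_sum]
          exact congrArg _ (Finset.sum_congr rfl fun k _ => by ring)

theorem Gain.mul {p : ℝ} {a b : ℕ} {γ γ' : ℝ} (hγ : 0 ≤ γ) (hγ' : 0 ≤ γ') (ha : Gain X p a γ)
    (hb : Gain X p b γ') : Gain X p (a * b) (γ' * γ) := by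
  intro M
  obtain ⟨C, h1, h2⟩ := Mart.exists_coarse hγ ha b M
  rw [← h1]
  refine (hb C).trans ?_
  rw [Nat.cast_mul, Real.mul_rpow (Nat.cast_nonneg _) (Nat.cast_nonneg _)]
  calc γ' * (b : ℝ) ^ (p - 1) * C.cost p
      ≤ γ' * (b : ℝ) ^ (p - 1) * (γ * (a : ℝ) ^ (p - 1) * M.cost p) :=
        mul_le_mul_of_nonneg_left h2 (mul_nonneg hγ' (rpow_nonneg (Nat.cast_nonneg _) _))
    _ = γ' * γ * ((a : ℝ) ^ (p - 1) * (b : ℝ) ^ (p - 1)) * M.cost p := by ring

theorem Gain.one {p : ℝ} : Gain X p 1 1 := by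
  intro M
  cases M with
  | node r w d hw hw1 hd child =>
    have h : ∀ i, (child i).cost p = 0 ∧ ∀ x, (child i).sumPow p x = ‖x‖ ^ p := by
      intro i
      match child i with
      | .nil => exact ⟨rfl, fun x => rfl⟩
    simp [Mart.sumPow, Mart.cost, fun i => (h i).1, fun i => (h i).2]

theorem Gain.pow {p : ℝ} {n : ℕ} {γ : ℝ} (hγ : 0 ≤ γ) (h : Gain X p n γ) :
    ∀ j : ℕ, Gain X p (n ^ j) (γ ^ j)
  | 0 => by simpa using (Gain.one (X := X) (p := p))
  | j + 1 => by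
      rw [pow_succ n j, pow_succ' γ j]
      exact (Gain.pow hγ h j).mul (pow_nonneg hγ j) hγ h

/-- The gain at every scale: a power below `p - 1`. -/
theorem exists_exponent {p : ℝ} {n : ℕ} {γ : ℝ} (hp : 1 < p) (hn : 2 ≤ n) (hγ : γ < 1)
    (h : Gain X p n γ) :
    ∃ e C₀ : ℝ, 0 < e ∧ e < p - 1 ∧ 0 ≤ C₀ ∧ ∀ (L : ℕ), 1 ≤ L → ∀ M : Mart X L,
      M.sumPow p 0 ≤ C₀ * (L : ℝ) ^ e * M.cost p := by
  have hn1 : (1 : ℝ) < n := by exact_mod_cast hn
  have hn0 : (0 : ℝ) < n := by linarith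
  set g : ℝ := max γ ((n : ℝ) ^ (-(p - 1) / 2)) with hg
  have hg0 : 0 < g := lt_max_of_lt_right (rpow_pos_of_pos hn0 _)
  have hg1 : g < 1 := max_lt hγ (Real.rpow_lt_one_of_one_lt_of_neg hn1 (by linarith))
  set e : ℝ := p - 1 + Real.logb n g with he
  have hlo : -(p - 1) / 2 ≤ Real.logb n g := by
    rw [Real.le_logb_iff_rpow_le hn1 hg0]
    exact le_max_right _ _
  have hhi : Real.logb n g < 0 := Real.logb_neg hn1 hg0 hg1
  have he0 : 0 < e := by rw [he]; linarith
  refine ⟨e, (n : ℝ) ^ e, he0, by rw [he]; linarith, rpow_nonneg hn0.le _, ?_⟩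
  intro L hL M
  set j := Nat.log n L + 1 with hj
  have hLj : L ≤ n ^ j := (Nat.lt_pow_succ_log_self (by omega) L).le
  have hjL : n ^ j ≤ n * L := by
    rw [hj, pow_succ']
    exact Nat.mul_le_mul_left n (Nat.pow_log_le_self n (by omega))
  obtain ⟨M', h1, h2⟩ := Mart.exists_pad (by linarith : p ≠ 0) hLj M
  rw [← h1, ← h2]
  refine ((h.mono (le_max_left _ _)).pow hg0.le j M').trans ?_
  refine mul_le_mul_of_nonneg_right ?_ (M'.cost_nonneg p)
  have hnj : (0 : ℝ) < ((n ^ j : ℕ) : ℝ) := by exact_mod_cast Nat.pow_pos (by omega)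
  have hg_eq : g ^ j = ((n ^ j : ℕ) : ℝ) ^ Real.logb n g := by
    rw [Nat.cast_pow, ← Real.rpow_natCast (n : ℝ) j, ← Real.rpow_mul hn0.le, mul_comm,
      Real.rpow_mul hn0.le, Real.rpow_logb hn0 hn1.ne' hg0, Real.rpow_natCast]
  rw [hg_eq, ← Real.rpow_add hnj, add_comm, ← he]
  rw [← Real.mul_rpow hn0.le (Nat.cast_nonneg _)]
  exact Real.rpow_le_rpow hnj.le (by exact_mod_cast hjL) he0.le

end Vale.Agent.P125
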