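import Vale.Agent.P125.Renorm.Mart

/-!
Binary martingales: from a gain at every scale to a bound by sums of `q`-th powers.
-/

namespace Vale.Agent.P125

open scoped BigOperators
open Real

universe u

/-- A binary tree of increments `± d`. -/
inductive BTree (X : Type u) : Type u
  | leaf : BTree X
  | node (d : X) (l r : BTree X) : BTree X

namespace BTree

variable {X : Type u} [NormedAddCommGroup X] [NormedSpace ℝ X]

/-- Expectation of a function of the starting point plus the final sum. -/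
noncomputable def ex (φ : X → ℝ) : BTree X → X → ℝ
  | .leaf, x => φ x
  | .node d l r, x => (ex φ l (x + d) + ex φ r (x - d)) / 2

/-- Expected sum of the `q`-th powers of the increments. -/
noncomputable def cost (q : ℝ) : BTree X → ℝ
  | .leaf => 0
  | .node d l r => ‖d‖ ^ q + (cost q l + cost q r) / 2

/-- The largest number of nonzero increments on a branch. -/
noncomputable def hits : BTree X → ℕ
  | .leaf => 0
  | .node d l r => by classical exact (if d = 0 then 0 else 1) + max (hits l) (hits r)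

/-- The probability of meeting a nonzero increment. -/
noncomputable def hitP : BTree X → ℝ
  | .leaf => 0
  | .node d l r => by classical exact if d = 0 then (hitP l + hitP r) / 2 else 1

/-- The depth. -/
def depth : BTree X → ℕ
  | .leaf => 0
  | .node _ l r => max (depth l) (depth r) + 1

/-- Sum of the large increments. -/
noncomputable def big : BTree X → ℝ
  | .leaf => 0
  | .node d l r => (if 1 < ‖d‖ then ‖d‖ else 0) + (big l + big r) / 2

/-- Increments bounded by `c`. -/
def Bdd (c : ℝ) : BTree X → Prop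
  | .leaf => True
  | .node d l r => ‖d‖ ≤ c ∧ Bdd c l ∧ Bdd c r

/-- Nonzero increments are not smaller than `(1/2) ^ L`. -/
def Fine (L : ℕ) : BTree X → Prop
  | .leaf => True
  | .node d l r => (d = 0 ∨ (1 / 2 : ℝ) ^ L < ‖d‖) ∧ Fine L l ∧ Fine L r

/-- The expected number of increments in a class. -/
noncomputable def cnt (lev : X → Prop) : BTree X → ℝ
  | .leaf => 0
  | .node d l r => by classical exact (if lev d then 1 else 0) + (cnt lev l + cnt lev r) / 2

/-- Keep the increments of a class whose index among that class lies in `[lo, hi)`. -/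
noncomputable def seg (lev : X → Prop) (lo hi : ℕ) : ℕ → BTree X → BTree X
  | _, .leaf => .leaf
  | k, .node d l r => by
      classical exact (if (lev d) then (BTree.node (if lo ≤ k + 1 ∧ k + 1 < hi then d else 0)
        (seg lev lo hi (k + 1) l) (seg lev lo hi (k + 1) r))
      else BTree.node 0 (seg lev lo hi k l) (seg lev lo hi k r))

/-- The class of the dyadic level `l`. -/
def IsLev (l : ℕ) (d : X) : Prop := (1 / 2 : ℝ) ^ (l + 1) < ‖d‖ ∧ ‖d‖ ≤ (1 / 2 : ℝ) ^ l

theorem cost_nonneg (q : ℝ) : ∀ T : BTree X, 0 ≤ cost q T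
  | .leaf => le_refl _
  | .node d l r => by
      have := cost_nonneg q l; have := cost_nonneg q r
      have := rpow_nonneg (norm_nonneg d) q
      simp only [cost]; linarith

theorem hitP_nonneg : ∀ T : BTree X, 0 ≤ hitP T
  | .leaf => le_refl _
  | .node d l r => by
      have := hitP_nonneg l; have := hitP_nonneg r
      simp only [hitP]; split_ifs <;> linarith

theorem hitP_le_one : ∀ T : BTree X, hitP T ≤ 1
  | .leaf => zero_le_one
  | .node d l r => by
      have := hitP_le_one l; have := hitP_le_one r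
      simp only [hitP]; split_ifs <;> linarith

theorem cnt_nonneg (lev : X → Prop) : ∀ T : BTree X, 0 ≤ cnt lev T
  | .leaf => le_refl _
  | .node d l r => by
      have := cnt_nonneg lev l; have := cnt_nonneg lev r
      simp only [cnt]; split_ifs <;> linarith

theorem exists_mart {p : ℝ} (hp : p ≠ 0) (c : ℝ) : ∀ (T : BTree X) (L : ℕ), T.hits ≤ L → ∀ x : X,
    ∃ M : Mart X L, ex (fun z => ‖z‖ ^ p) T x - c * cost p T ≤ M.sumPow p x - c * M.cost p
  | .leaf, L, _, x => by
      obtain ⟨M, h1, h2⟩ := Mart.exists_pad hp (Nat.zero_le L) (.nil : Mart X 0)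
      exact ⟨M, by rw [h1, h2]; simp [ex, cost, Mart.sumPow, Mart.cost]⟩
  | .node d l r, L, h, x => by
      classical
      simp only [hits] at h
      by_cases hd : d = 0
      · subst hd
        simp only [if_true, zero_add] at h
        obtain ⟨M1, h1⟩ := exists_mart hp c l L ((le_max_left _ _).trans h) x
        obtain ⟨M2, h2⟩ := exists_mart hp c r L ((le_max_right _ _).trans h) x
        rcases le_total (M1.sumPow p x - c * M1.cost p) (M2.sumPow p x - c * M2.cost p) with h' | h'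
        · refine ⟨M2, ?_⟩
          simp [ex, cost, Real.zero_rpow hp]
          linarith
        · refine ⟨M1, ?_⟩
          simp [ex, cost, Real.zero_rpow hp]
          linarith
      · rw [if_neg hd] at h
        obtain ⟨L', rfl⟩ : ∃ L', L = L' + 1 := ⟨L - 1, by omega⟩
        obtain ⟨M1, h1⟩ := exists_mart hp c l L' (by omega) (x + d)
        obtain ⟨M2, h2⟩ := exists_mart hp c r L' (by omega) (x - d)
        refine ⟨.node 2 ![1 / 2, 1 / 2] ![d, -d] ?_ ?_ ?_ ![M1, M2], ?_⟩
        · intro i; fin_cases i <;> norm_num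
        · norm_num [Fin.sum_univ_two]
        · simp
        · simp [ex, cost, Mart.sumPow, Mart.cost, Fin.sum_univ_two, ← sub_eq_add_neg]
          linarith

theorem pow_le_of_hits {p e C₀ : ℝ} (hp : p ≠ 0)
    (hM : ∀ (L : ℕ), 1 ≤ L → ∀ M : Mart X L, M.sumPow p 0 ≤ C₀ * (L : ℝ) ^ e * M.cost p)
    {L : ℕ} (hL : 1 ≤ L) (T : BTree X) (hT : T.hits ≤ L) :
    ex (fun z => ‖z‖ ^ p) T 0 ≤ C₀ * (L : ℝ) ^ e * cost p T := by
  obtain ⟨M, h⟩ := exists_mart hp (C₀ * (L : ℝ) ^ e) T L hT 0
  have := hM L hL M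
  linarith

theorem cost_le_hits {p c : ℝ} (hp : 0 < p) (hc : 0 ≤ c) : ∀ T : BTree X, Bdd c T →
    cost p T ≤ c ^ p * (T.hits * T.hitP)
  | .leaf, _ => by simp [cost, hits, hitP]
  | .node d l r, hb => by
      classical
      obtain ⟨hdc, hbl, hbr⟩ := hb
      have hl := cost_le_hits hp hc l hbl
      have hr := cost_le_hits hp hc r hbr
      have hcp : 0 ≤ c ^ p := rpow_nonneg hc p
      have ml : (l.hits : ℝ) ≤ ((max l.hits r.hits : ℕ) : ℝ) := by exact_mod_cast le_max_left _ _
      have mr : (r.hits : ℝ) ≤ ((max l.hits r.hits : ℕ) : ℝ) := by exact_mod_cast le_max_right _ _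
      have m0 : (0 : ℝ) ≤ ((max l.hits r.hits : ℕ) : ℝ) := Nat.cast_nonneg _
      by_cases hd : d = 0
      · simp only [cost, hits, hitP, hd, if_true, zero_add, norm_zero, Real.zero_rpow hp.ne']
        have a1 : (l.hits : ℝ) * l.hitP ≤ ((max l.hits r.hits : ℕ) : ℝ) * l.hitP :=
          mul_le_mul_of_nonneg_right ml (hitP_nonneg l)
        have a2 : (r.hits : ℝ) * r.hitP ≤ ((max l.hits r.hits : ℕ) : ℝ) * r.hitP :=
          mul_le_mul_of_nonneg_right mr (hitP_nonneg r)
        nlinarith [mul_le_mul_of_nonneg_left a1 hcp, mul_le_mul_of_nonneg_left a2 hcp]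
      · simp only [cost, hits, hitP, hd, if_false, Nat.cast_add, Nat.cast_one, mul_one]
        have hdp : ‖d‖ ^ p ≤ c ^ p := Real.rpow_le_rpow (norm_nonneg _) hdc hp.le
        have a1 : (l.hits : ℝ) * l.hitP ≤ ((max l.hits r.hits : ℕ) : ℝ) * 1 :=
          mul_le_mul ml (hitP_le_one l) (hitP_nonneg l) m0
        have a2 : (r.hits : ℝ) * r.hitP ≤ ((max l.hits r.hits : ℕ) : ℝ) * 1 :=
          mul_le_mul mr (hitP_le_one r) (hitP_nonneg r) m0
        nlinarith [mul_le_mul_of_nonneg_left a1 hcp, mul_le_mul_of_nonneg_left a2 hcp]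

theorem norm_le_interp {p lam t : ℝ} (hp : 1 < p) (hl : 0 < lam) (ht : 0 ≤ t) :
    t ≤ lam ^ (1 - p) * t ^ p + lam := by
  have h2 : 0 ≤ lam ^ (1 - p) * t ^ p := mul_nonneg (rpow_nonneg hl.le _) (rpow_nonneg ht _)
  rcases le_total t lam with h | h
  · linarith
  · have ht0 : 0 < t := hl.trans_le h
    have h1 : lam ^ (p - 1) ≤ t ^ (p - 1) := Real.rpow_le_rpow hl.le h (by linarith)
    have h3 : lam ^ (1 - p) * lam ^ (p - 1) = 1 := by
      rw [← Real.rpow_add hl]; simp
    have h4 : t * t ^ (p - 1) = t ^ p := by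
      conv_lhs => rw [show t * t ^ (p - 1) = t ^ (1 : ℝ) * t ^ (p - 1) by rw [Real.rpow_one]]
      rw [← Real.rpow_add ht0]; ring_nf
    have h5 : t = lam ^ (1 - p) * (t * lam ^ (p - 1)) := by
      rw [mul_left_comm, h3, mul_one]
    calc t = lam ^ (1 - p) * (t * lam ^ (p - 1)) := h5
      _ ≤ lam ^ (1 - p) * t ^ p := by
          rw [← h4]
          exact mul_le_mul_of_nonneg_left (mul_le_mul_of_nonneg_left h1 ht) (rpow_nonneg hl.le _)
      _ ≤ _ := by linarith

theorem norm_interp {p lam : ℝ} (hp : 1 < p) (hl : 0 < lam) : ∀ (T : BTree X) (x : X),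
    ex (fun z => ‖z‖) T x ≤ lam ^ (1 - p) * ex (fun z => ‖z‖ ^ p) T x + lam ∧
    (x = 0 → ex (fun z => ‖z‖) T x ≤
      lam ^ (1 - p) * ex (fun z => ‖z‖ ^ p) T x + lam * hitP T)
  | .leaf, x => by
      refine ⟨norm_le_interp hp hl (norm_nonneg x), fun hx => ?_⟩
      subst hx
      simp [ex, hitP, Real.zero_rpow (by linarith : p ≠ 0)]
  | .node d l r, x => by
      classical
      obtain ⟨a1, b1⟩ := norm_interp hp hl l (x + d)
      obtain ⟨a2, b2⟩ := norm_interp hp hl r (x - d)
      refine ⟨by simp only [ex]; linarith, fun hx => ?_⟩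
      subst hx
      by_cases hd : d = 0
      · subst hd
        have c1 := b1 (by simp)
        have c2 := b2 (by simp)
        simp only [ex, hitP, if_true]
        linarith
      · simp only [ex, hitP, if_neg hd]
        linarith

theorem hits_seg (lev : X → Prop) (lo hi : ℕ) : ∀ (T : BTree X) (k : ℕ),
    (seg lev lo hi k T).hits ≤ hi - max lo (k + 1)
  | .leaf, k => by simp [seg, hits]
  | .node d l r, k => by
      classical
      simp only [seg]
      split_ifs with h1 h2
      · simp only [hits]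
        have := hits_seg lev lo hi l (k + 1)
        have := hits_seg lev lo hi r (k + 1)
        split_ifs <;> omega
      · simp only [hits, if_true, zero_add]
        have := hits_seg lev lo hi l (k + 1)
        have := hits_seg lev lo hi r (k + 1)
        omega
      · simp only [hits, if_true, zero_add]
        have := hits_seg lev lo hi l k
        have := hits_seg lev lo hi r k
        omega

theorem bdd_seg {lev : X → Prop} {c : ℝ} (hc : 0 ≤ c) (hlev : ∀ d, lev d → ‖d‖ ≤ c) (lo hi : ℕ) :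
    ∀ (T : BTree X) (k : ℕ), Bdd c (seg lev lo hi k T)
  | .leaf, k => by simp [seg, Bdd]
  | .node d l r, k => by
      classical
      simp only [seg]
      split_ifs with h1 h2
      · exact ⟨hlev d h1, bdd_seg hc hlev lo hi l _, bdd_seg hc hlev lo hi r _⟩
      · exact ⟨by simpa using hc, bdd_seg hc hlev lo hi l _, bdd_seg hc hlev lo hi r _⟩
      · exact ⟨by simpa using hc, bdd_seg hc hlev lo hi l _, bdd_seg hc hlev lo hi r _⟩

theorem hitP_seg (lev : X → Prop) {lo hi : ℕ} (hlh : lo < hi) : ∀ (T : BTree X) (k : ℕ),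
    ((lo : ℝ) - k) * (seg lev lo hi k T).hitP ≤ cnt lev T
  | .leaf, k => by simp [seg, hitP, cnt]
  | .node d l r, k => by
      classical
      have n1 := cnt_nonneg lev l
      have n2 := cnt_nonneg lev r
      simp only [seg, cnt]
      by_cases h1 : lev d
      · have i1 := hitP_seg lev hlh l (k + 1)
        have i2 := hitP_seg lev hlh r (k + 1)
        push_cast at i1 i2
        have u1 := hitP_le_one (seg lev lo hi (k + 1) l)
        have u2 := hitP_le_one (seg lev lo hi (k + 1) r)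
        have v1 := hitP_nonneg (seg lev lo hi (k + 1) l)
        have v2 := hitP_nonneg (seg lev lo hi (k + 1) r)
        simp only [if_pos h1]
        by_cases h2 : lo ≤ k + 1 ∧ k + 1 < hi
        · have : (lo : ℝ) ≤ k + 1 := by exact_mod_cast h2.1
          simp only [if_pos h2, hitP]
          split_ifs <;> nlinarith
        · simp only [if_neg h2, hitP, if_true]
          linarith
      · have i1 := hitP_seg lev hlh l k
        have i2 := hitP_seg lev hlh r k
        simp only [if_neg h1, hitP, if_true]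
        linarith

theorem cnt_le_cost {q : ℝ} (hq : 0 ≤ q) (l : ℕ) : ∀ T : BTree X,
    cnt (IsLev l) T * ((1 / 2 : ℝ) ^ (l + 1)) ^ q ≤ cost q T
  | .leaf => by simp [cnt, cost]
  | .node d a b => by
      classical
      have ha := cnt_le_cost hq l a
      have hb := cnt_le_cost hq l b
      have hd := rpow_nonneg (norm_nonneg d) q
      simp only [cnt, cost]
      split_ifs with h
      · have : ((1 / 2 : ℝ) ^ (l + 1)) ^ q ≤ ‖d‖ ^ q :=
          Real.rpow_le_rpow (by positivity) h.1.le hq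
        linarith
      · linarith

theorem big_le_cost {q : ℝ} (hq : 1 ≤ q) : ∀ T : BTree X, big T ≤ cost q T
  | .leaf => le_refl _
  | .node d l r => by
      have := big_le_cost hq l; have := big_le_cost hq r
      have := rpow_nonneg (norm_nonneg d) q
      simp only [big, cost]
      split_ifs with h
      · have := Real.rpow_le_rpow_of_exponent_le h.le hq
        rw [Real.rpow_one] at this
        linarith
      · linarith

theorem Fine.mono {L L' : ℕ} (h : L ≤ L') : ∀ {T : BTree X}, Fine L T → Fine L' T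
  | .leaf, _ => trivial
  | .node d l r, hT => ⟨hT.1.imp id fun hd =>
      lt_of_le_of_lt (pow_le_pow_of_le_one (by norm_num) (by norm_num) h) hd,
      Fine.mono h hT.2.1, Fine.mono h hT.2.2⟩

theorem exists_fine : ∀ T : BTree X, ∃ L, Fine L T
  | .leaf => ⟨0, trivial⟩
  | .node d l r => by
      obtain ⟨L1, h1⟩ := exists_fine l
      obtain ⟨L2, h2⟩ := exists_fine r
      by_cases hd : d = 0
      · exact ⟨max L1 L2, Or.inl hd, h1.mono (le_max_left _ _), h2.mono (le_max_right _ _)⟩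
      · obtain ⟨L, hL⟩ := exists_pow_lt_of_lt_one (norm_pos_iff.2 hd)
          (by norm_num : (1 / 2 : ℝ) < 1)
        refine ⟨max L (max L1 L2), Or.inr ?_, h1.mono (by omega), h2.mono (by omega)⟩
        exact lt_of_le_of_lt
          (pow_le_pow_of_le_one (by norm_num) (by norm_num) (le_max_left _ _)) hL

theorem IsLev.unique {l l' : ℕ} {d : X} (h : IsLev l d) (h' : IsLev l' d) : l = l' := by
  by_contra hne
  rcases Nat.lt_or_gt_of_ne hne with hlt | hlt
  · have : (1 / 2 : ℝ) ^ l' ≤ (1 / 2 : ℝ) ^ (l + 1) :=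
      pow_le_pow_of_le_one (by norm_num) (by norm_num) hlt
    linarith [h.1, h'.2]
  · have : (1 / 2 : ℝ) ^ l ≤ (1 / 2 : ℝ) ^ (l' + 1) :=
      pow_le_pow_of_le_one (by norm_num) (by norm_num) hlt
    linarith [h'.1, h.2]

theorem exists_isLev {L : ℕ} {d : X} (h1 : ‖d‖ ≤ 1) (h2 : (1 / 2 : ℝ) ^ L < ‖d‖) :
    ∃ l < L, IsLev l d := by
  have hex : ∃ l, (1 / 2 : ℝ) ^ (l + 1) < ‖d‖ := by
    refine ⟨L, lt_of_le_of_lt ?_ h2⟩
    exact pow_le_pow_of_le_one (by norm_num) (by norm_num) (Nat.le_succ L)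
  classical
  set l := Nat.find hex with hl
  have hspec : (1 / 2 : ℝ) ^ (l + 1) < ‖d‖ := Nat.find_spec hex
  have hupper : ‖d‖ ≤ (1 / 2 : ℝ) ^ l := by
    rcases Nat.eq_zero_or_pos l with h | h
    · rw [h]; simpa using h1
    · have := Nat.find_min hex (show l - 1 < l by omega)
      rw [show l - 1 + 1 = l by omega] at this
      exact not_lt.1 this
  refine ⟨l, ?_, hspec, hupper⟩
  by_contra hLl
  have : (1 / 2 : ℝ) ^ l ≤ (1 / 2 : ℝ) ^ L :=
    pow_le_pow_of_le_one (by norm_num) (by norm_num) (not_lt.1 hLl)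
  linarith

open Classical in
theorem split_increment {L J₀ : ℕ} {d : X} (hd : d = 0 ∨ (1 / 2 : ℝ) ^ L < ‖d‖)
    (k : ℕ → ℕ) (hk : ∀ l, k l + 1 < 2 ^ J₀) :
    (if 1 < ‖d‖ then d else 0) + ∑ l ∈ Finset.range L, ∑ J ∈ Finset.range J₀,
      (if IsLev l d then (if 2 ^ J ≤ k l + 1 ∧ k l + 1 < 2 ^ (J + 1) then d else 0) else 0)
      = d := by
  by_cases hb : 1 < ‖d‖
  · rw [if_pos hb, add_eq_left]
    refine Finset.sum_eq_zero fun l _ => Finset.sum_eq_zero fun J _ => if_neg fun h => ?_
    have := pow_le_one₀ (n := l) (by norm_num : (0 : ℝ) ≤ 1 / 2) (by norm_num)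
    linarith [h.2]
  rw [if_neg hb, zero_add]
  rcases hd with hd | hd
  · subst hd; simp
  obtain ⟨l₀, hl₀, hlev⟩ := exists_isLev (not_lt.1 hb) hd
  rw [Finset.sum_eq_single_of_mem l₀ (Finset.mem_range.2 hl₀)]
  · simp only [if_pos hlev]
    have ha : 2 ^ Nat.log 2 (k l₀ + 1) ≤ k l₀ + 1 := Nat.pow_log_le_self 2 (by omega)
    have hb' : k l₀ + 1 < 2 ^ (Nat.log 2 (k l₀ + 1) + 1) :=
      Nat.lt_pow_succ_log_self (by norm_num) _
    rw [Finset.sum_eq_single_of_mem (Nat.log 2 (k l₀ + 1))]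
    · rw [if_pos ⟨ha, hb'⟩]
    · exact Finset.mem_range.2 (Nat.log_lt_of_lt_pow (by omega) (hk l₀))
    · intro J _ hJ
      exact if_neg fun h => hJ (Nat.log_eq_of_pow_le_of_lt_pow h.1 h.2).symm
  · intro l _ hl
    exact Finset.sum_eq_zero fun J _ => if_neg fun h => hl (h.unique hlev)

theorem decomp (L J₀ : ℕ) : ∀ (T : BTree X), Fine L T → ∀ (k : ℕ → ℕ),
    (∀ l, k l + depth T < 2 ^ J₀) → ∀ (x : X) (y : ℕ → ℕ → X),
    ex (fun z => ‖z‖) T (x + ∑ l ∈ Finset.range L, ∑ J ∈ Finset.range J₀, y l J) ≤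
      ‖x‖ + big T + ∑ l ∈ Finset.range L, ∑ J ∈ Finset.range J₀,
        ex (fun z => ‖z‖) (seg (IsLev l) (2 ^ J) (2 ^ (J + 1)) (k l) T) (y l J)
  | .leaf, _, k, _, x, y => by
      simp only [ex, seg, big, add_zero]
      refine (norm_add_le _ _).trans (add_le_add le_rfl ?_)
      exact (norm_sum_le _ _).trans (Finset.sum_le_sum fun l _ => norm_sum_le _ _)
  | .node d a b, hT, k, hk, x, y => by
      classical
      obtain ⟨hd, hTa, hTb⟩ := hT
      set k' : ℕ → ℕ := fun l => if IsLev l d then k l + 1 else k l with hk'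
      set v : ℕ → ℕ → X := fun l J =>
        if IsLev l d then (if 2 ^ J ≤ k l + 1 ∧ k l + 1 < 2 ^ (J + 1) then d else 0) else 0 with hv
      set β : X := if 1 < ‖d‖ then d else 0 with hβ
      have hsplit : β + ∑ l ∈ Finset.range L, ∑ J ∈ Finset.range J₀, v l J = d :=
        split_increment hd k fun l => by have := hk l; simp only [depth] at this; omega
      have hka : ∀ l, k' l + depth a < 2 ^ J₀ := fun l => by
        have := hk l; simp only [depth] at this; simp only [hk']; split_ifs <;> omega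
      have hkb : ∀ l, k' l + depth b < 2 ^ J₀ := fun l => by
        have := hk l; simp only [depth] at this; simp only [hk']; split_ifs <;> omega
      have hseg : ∀ l J, ex (fun z => ‖z‖) (seg (IsLev l) (2 ^ J) (2 ^ (J + 1)) (k l) (.node d a b))
          (y l J) = (ex (fun z => ‖z‖) (seg (IsLev l) (2 ^ J) (2 ^ (J + 1)) (k' l) a) (y l J + v l J)
            + ex (fun z => ‖z‖) (seg (IsLev l) (2 ^ J) (2 ^ (J + 1)) (k' l) b) (y l J - v l J)) / 2 := by
        intro l J
        simp only [hk', hv]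
        by_cases h : IsLev l d
        · simp only [seg, if_pos h, ex]
        · simp only [seg, if_neg h, ex]
      have ha := decomp L J₀ a hTa k' hka (x + β) (fun l J => y l J + v l J)
      have hb := decomp L J₀ b hTb k' hkb (x - β) (fun l J => y l J - v l J)
      simp only [Finset.sum_add_distrib] at ha
      simp only [Finset.sum_sub_distrib] at hb
      rw [show x + β + ((∑ l ∈ Finset.range L, ∑ J ∈ Finset.range J₀, y l J) +
            ∑ l ∈ Finset.range L, ∑ J ∈ Finset.range J₀, v l J)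
          = (x + ∑ l ∈ Finset.range L, ∑ J ∈ Finset.range J₀, y l J) +
            (β + ∑ l ∈ Finset.range L, ∑ J ∈ Finset.range J₀, v l J) by abel, hsplit] at ha
      rw [show x - β + ((∑ l ∈ Finset.range L, ∑ J ∈ Finset.range J₀, y l J) -
            ∑ l ∈ Finset.range L, ∑ J ∈ Finset.range J₀, v l J)
          = (x + ∑ l ∈ Finset.range L, ∑ J ∈ Finset.range J₀, y l J) -
            (β + ∑ l ∈ Finset.range L, ∑ J ∈ Finset.range J₀, v l J) by abel, hsplit] at hb
      have hx1 : ‖x + β‖ ≤ ‖x‖ + (if 1 < ‖d‖ then ‖d‖ else 0) := by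
        refine (norm_add_le _ _).trans (le_of_eq ?_); simp only [hβ]; split_ifs <;> simp
      have hx2 : ‖x - β‖ ≤ ‖x‖ + (if 1 < ‖d‖ then ‖d‖ else 0) := by
        refine (norm_sub_le _ _).trans (le_of_eq ?_); simp only [hβ]; split_ifs <;> simp
      rw [Finset.sum_congr rfl fun l _ => Finset.sum_congr rfl fun J _ => hseg l J]
      simp only [← Finset.sum_div, Finset.sum_add_distrib]
      simp only [ex, big]
      linarith

theorem seg_bound {p e C₀ α : ℝ} (hp : 1 < p) (hC₀ : 0 ≤ C₀) (hα : α * p = e + 1)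
    (hM : ∀ (L : ℕ), 1 ≤ L → ∀ M : Mart X L, M.sumPow p 0 ≤ C₀ * (L : ℝ) ^ e * M.cost p)
    (l J : ℕ) (T : BTree X) :
    ex (fun z => ‖z‖) (seg (IsLev l) (2 ^ J) (2 ^ (J + 1)) 0 T) 0 ≤
      (C₀ + 1) * (2 : ℝ) ^ ((J : ℝ) * α - l) *
        (seg (IsLev l) (2 ^ J) (2 ^ (J + 1)) 0 T).hitP := by
  set S := seg (IsLev l) (2 ^ J) (2 ^ (J + 1)) 0 T with hS
  have hp0 : 0 < p := by linarith
  have hh : S.hits ≤ 2 ^ J := by
    have := hits_seg (IsLev (X := X) l) (2 ^ J) (2 ^ (J + 1)) T 0
    have h1 : 1 ≤ 2 ^ J := Nat.one_le_two_pow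
    have h2 : 2 ^ (J + 1) = 2 * 2 ^ J := pow_succ' 2 J
    rw [← hS] at this
    omega
  have hb : Bdd ((1 / 2 : ℝ) ^ l) S := bdd_seg (by positivity) (fun d hd => hd.2) _ _ _ _
  set lam : ℝ := (2 : ℝ) ^ ((J : ℝ) * α - l) with hlam
  have hlam0 : 0 < lam := rpow_pos_of_pos two_pos _
  have h1 := (norm_interp hp hlam0 S 0).2 rfl
  have h2 := pow_le_of_hits hp0.ne' hM Nat.one_le_two_pow S hh
  have h3 := cost_le_hits hp0 (by positivity) S hb
  have hh' : (S.hits : ℝ) ≤ ((2 ^ J : ℕ) : ℝ) := by exact_mod_cast hh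
  have h4 : ex (fun z => ‖z‖ ^ p) S 0 ≤
      C₀ * ((2 ^ J : ℕ) : ℝ) ^ e * (((1 / 2 : ℝ) ^ l) ^ p * (((2 ^ J : ℕ) : ℝ) * S.hitP)) := by
    refine h2.trans (mul_le_mul_of_nonneg_left (h3.trans ?_) (by positivity))
    exact mul_le_mul_of_nonneg_left
      (mul_le_mul_of_nonneg_right hh' (hitP_nonneg S)) (rpow_nonneg (by positivity) _)
  have h5 : lam ^ (1 - p) * (((2 ^ J : ℕ) : ℝ) ^ e * ((1 / 2 : ℝ) ^ l) ^ p * ((2 ^ J : ℕ) : ℝ))
      = lam := by
    have hJ : ((2 ^ J : ℕ) : ℝ) = (2 : ℝ) ^ (J : ℝ) := by rw [Real.rpow_natCast]; norm_num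
    have hl : (1 / 2 : ℝ) ^ l = (2 : ℝ) ^ (-(l : ℝ)) := by
      rw [Real.rpow_neg two_pos.le, Real.rpow_natCast, one_div, inv_pow]
    rw [hlam, hJ, hl]
    simp only [← Real.rpow_mul two_pos.le, ← Real.rpow_add two_pos]
    congr 1
    linear_combination -(J : ℝ) * hα
  have h6 := mul_le_mul_of_nonneg_left h4 (rpow_nonneg hlam0.le (1 - p))
  have h7 : lam ^ (1 - p) * (C₀ * ((2 ^ J : ℕ) : ℝ) ^ e *
      (((1 / 2 : ℝ) ^ l) ^ p * (((2 ^ J : ℕ) : ℝ) * S.hitP))) = C₀ * lam * S.hitP := by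
    calc _ = C₀ * S.hitP * (lam ^ (1 - p) * (((2 ^ J : ℕ) : ℝ) ^ e * ((1 / 2 : ℝ) ^ l) ^ p *
          ((2 ^ J : ℕ) : ℝ))) := by ring
      _ = _ := by rw [h5]; ring
  rw [h7] at h6
  linarith

/-- A gain at every scale bounds binary martingales by sums of `q`-th powers of increments. -/
theorem exists_q {p e C₀ : ℝ} (hp : 1 < p) (he : 0 < e) (he1 : e < p - 1) (hC₀ : 0 ≤ C₀)
    (hM : ∀ (L : ℕ), 1 ≤ L → ∀ M : Mart X L, M.sumPow p 0 ≤ C₀ * (L : ℝ) ^ e * M.cost p) :
    ∃ q C : ℝ, 1 < q ∧ q ≤ 2 ∧ 0 < C ∧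
      ∀ T : BTree X, ex (fun z => ‖z‖) T 0 ≤ C * (1 + cost q T) := by
  set α : ℝ := (e + 1) / p with hα
  have hp0 : 0 < p := by linarith
  have hαp : α * p = e + 1 := by rw [hα]; field_simp
  have hα0 : 0 < α := by rw [hα]; positivity
  have hα1 : α < 1 := by rw [hα, div_lt_one hp0]; linarith
  set q : ℝ := 1 + (1 - α) / 2 with hq
  set r₁ : ℝ := (2 : ℝ) ^ (α - 1) with hr₁
  set r₂ : ℝ := (2 : ℝ) ^ ((α - 1) / 2) with hr₂
  have hr₁0 : 0 < r₁ := rpow_pos_of_pos two_pos _
  have hr₂0 : 0 < r₂ := rpow_pos_of_pos two_pos _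
  have hr₁1 : r₁ < 1 := Real.rpow_lt_one_of_one_lt_of_neg one_lt_two (by linarith)
  have hr₂1 : r₂ < 1 := Real.rpow_lt_one_of_one_lt_of_neg one_lt_two (by linarith)
  set ρ : ℝ := (2 : ℝ) ^ α with hρ
  have hρ1 : 1 < ρ := Real.one_lt_rpow one_lt_two hα0
  set K₁ : ℝ := ρ / (ρ - 1) / (1 - r₁) with hK₁
  set K₂ : ℝ := (2 : ℝ) ^ q * (r₁ / (1 - r₁)) / (1 - r₂) with hK₂
  have hK₁0 : 0 ≤ K₁ := div_nonneg (div_nonneg (by linarith) (by linarith)) (by linarith)
  have hK₂0 : 0 ≤ K₂ :=
    div_nonneg (mul_nonneg (by positivity) (div_nonneg hr₁0.le (by linarith))) (by linarith)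
  refine ⟨q, (C₀ + 1) * (K₁ + K₂) + 1, by linarith, by linarith,
    by nlinarith, fun T => ?_⟩
  obtain ⟨L, hL⟩ := exists_fine T
  set J₀ := depth T + 1 with hJ₀
  have hdec := decomp L J₀ T hL (fun _ => 0)
    (fun _ => by
      have := Nat.lt_two_pow_self (n := J₀)
      simp only [zero_add]; omega) 0 (fun _ _ => 0)
  simp only [Finset.sum_const_zero, add_zero, norm_zero, zero_add] at hdec
  set A := cost q T with hA
  have hA0 : 0 ≤ A := cost_nonneg q T
  have hin : ∀ l : ℕ, ∑ J ∈ Finset.range J₀,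
      ex (fun z => ‖z‖) (seg (IsLev l) (2 ^ J) (2 ^ (J + 1)) 0 T) 0 ≤
      (C₀ + 1) * (ρ / (ρ - 1) * r₁ ^ l + (2 : ℝ) ^ q * (r₁ / (1 - r₁)) * A * r₂ ^ l) := by
    intro l
    set P : ℕ → ℝ := fun J => (seg (IsLev l) (2 ^ J) (2 ^ (J + 1)) 0 T).hitP with hP
    have hP0 : ∀ J, 0 ≤ P J := fun J => hitP_nonneg _
    calc ∑ J ∈ Finset.range J₀, ex (fun z => ‖z‖) (seg (IsLev l) (2 ^ J) (2 ^ (J + 1)) 0 T) 0
        ≤ ∑ J ∈ Finset.range J₀, (C₀ + 1) * ((2 : ℝ) ^ ((J : ℝ) * α - l) * P J) :=
          Finset.sum_le_sum fun J _ => (seg_bound hp hC₀ hαp hM l J T).trans (le_of_eq (by ring))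
      _ = (C₀ + 1) * ∑ J ∈ Finset.range J₀, (2 : ℝ) ^ ((J : ℝ) * α - l) * P J := by
          rw [Finset.mul_sum]
      _ ≤ _ := by
        refine mul_le_mul_of_nonneg_left ?_ (by linarith)
        have hle : ∑ J ∈ Finset.range J₀, (2 : ℝ) ^ ((J : ℝ) * α - l) * P J ≤
            ∑ J ∈ Finset.range (l + 1), (2 : ℝ) ^ ((J : ℝ) * α - l) * P J +
            ∑ J ∈ Finset.Ico (l + 1) (max J₀ (l + 1)), (2 : ℝ) ^ ((J : ℝ) * α - l) * P J := by
          rw [Finset.sum_range_add_sum_Ico _ (le_max_right _ _)]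
          exact Finset.sum_le_sum_of_subset_of_nonneg (Finset.range_mono (le_max_left _ _))
            fun J _ _ => mul_nonneg (by positivity) (hP0 J)
        refine hle.trans (add_le_add ?_ ?_)
        · calc ∑ J ∈ Finset.range (l + 1), (2 : ℝ) ^ ((J : ℝ) * α - l) * P J
              ≤ ∑ J ∈ Finset.range (l + 1), ((2 : ℝ) ^ l)⁻¹ * ρ ^ J := by
                refine Finset.sum_le_sum fun J _ => (mul_le_of_le_one_right (by positivity)
                  (hitP_le_one _)).trans (le_of_eq ?_)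
                rw [hρ, ← Real.rpow_natCast ((2 : ℝ) ^ α), ← Real.rpow_mul two_pos.le,
                  ← Real.rpow_natCast (2 : ℝ) l, ← Real.rpow_neg two_pos.le,
                  ← Real.rpow_add two_pos]
                congr 1; ring
            _ = ((2 : ℝ) ^ l)⁻¹ * ((ρ ^ (l + 1) - 1) / (ρ - 1)) := by
                rw [← Finset.mul_sum, geom_sum_eq hρ1.ne']
            _ ≤ ((2 : ℝ) ^ l)⁻¹ * (ρ ^ (l + 1) / (ρ - 1)) := by
                refine mul_le_mul_of_nonneg_left ?_ (by positivity)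
                exact div_le_div_of_nonneg_right (by linarith) (by linarith)
            _ = ρ / (ρ - 1) * r₁ ^ l := by
                have : r₁ = ρ / 2 := by rw [hr₁, hρ, Real.rpow_sub two_pos, Real.rpow_one]
                rw [this, div_pow, pow_succ]
                field_simp
        · have hterm : ∀ J : ℕ, (2 : ℝ) ^ ((J : ℝ) * α - l) * P J ≤
              (2 : ℝ) ^ q * A * ((2 : ℝ) ^ (q - 1)) ^ l * r₁ ^ J := by
            intro J
            have h1 := hitP_seg (IsLev (X := X) l)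
              (Nat.pow_lt_pow_right (by norm_num : 1 < 2) (Nat.lt_succ_self J)) T 0
            simp only [Nat.cast_zero, sub_zero, Nat.cast_pow, Nat.cast_ofNat] at h1
            have h2 := cnt_le_cost (by linarith : (0 : ℝ) ≤ q) l T
            have hpos : (0 : ℝ) < ((1 / 2 : ℝ) ^ (l + 1)) ^ q := rpow_pos_of_pos (by positivity) _
            have h3 : (2 : ℝ) ^ J * P J * ((1 / 2 : ℝ) ^ (l + 1)) ^ q ≤ A :=
              (mul_le_mul_of_nonneg_right h1 hpos.le).trans h2
            have hc : ((1 / 2 : ℝ) ^ (l + 1)) ^ q = (2 : ℝ) ^ (-((l : ℝ) + 1) * q) := by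
              rw [Real.rpow_mul two_pos.le]
              congr 1
              rw [Real.rpow_neg two_pos.le, one_div, inv_pow, ← Real.rpow_natCast]
              push_cast; ring_nf
            rw [hc, ← Real.rpow_natCast (2 : ℝ) J] at h3
            calc (2 : ℝ) ^ ((J : ℝ) * α - l) * P J
                = (2 : ℝ) ^ ((J : ℝ) * α - l - J + ((l : ℝ) + 1) * q) *
                    ((2 : ℝ) ^ (J : ℝ) * P J * (2 : ℝ) ^ (-((l : ℝ) + 1) * q)) := by
                  rw [show ∀ a b c d : ℝ, a * (b * c * d) = a * b * d * c from fun a b c d => by ring,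
                    ← Real.rpow_add two_pos, ← Real.rpow_add two_pos]
                  congr 2; ring
              _ ≤ (2 : ℝ) ^ ((J : ℝ) * α - l - J + ((l : ℝ) + 1) * q) * A :=
                  mul_le_mul_of_nonneg_left h3 (by positivity)
              _ = _ := by
                  rw [hr₁, ← Real.rpow_natCast ((2 : ℝ) ^ (q - 1)), ← Real.rpow_mul two_pos.le,
                    ← Real.rpow_natCast ((2 : ℝ) ^ (α - 1)), ← Real.rpow_mul two_pos.le]
                  rw [show ∀ a A b c : ℝ, a * A * b * c = a * b * c * A from fun a A b c => by ring,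
                    ← Real.rpow_add two_pos, ← Real.rpow_add two_pos]
                  congr 2; ring
          calc ∑ J ∈ Finset.Ico (l + 1) (max J₀ (l + 1)), (2 : ℝ) ^ ((J : ℝ) * α - l) * P J
              ≤ ∑ J ∈ Finset.Ico (l + 1) (max J₀ (l + 1)),
                  (2 : ℝ) ^ q * A * ((2 : ℝ) ^ (q - 1)) ^ l * r₁ ^ J :=
                Finset.sum_le_sum fun J _ => hterm J
            _ ≤ (2 : ℝ) ^ q * A * ((2 : ℝ) ^ (q - 1)) ^ l * (r₁ ^ (l + 1) / (1 - r₁)) := by
                rw [← Finset.mul_sum]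
                exact mul_le_mul_of_nonneg_left (geom_sum_Ico_le_of_lt_one hr₁0.le hr₁1)
                  (by positivity)
            _ = (2 : ℝ) ^ q * (r₁ / (1 - r₁)) * A * r₂ ^ l := by
                have : r₂ = (2 : ℝ) ^ (q - 1) * r₁ := by
                  rw [hr₂, hr₁, ← Real.rpow_add two_pos]; congr 1; rw [hq]; ring
                rw [this, mul_pow, pow_succ]
                ring
  have hgeom : ∀ r : ℝ, 0 ≤ r → r < 1 → ∑ l ∈ Finset.range L, r ^ l ≤ 1 / (1 - r) := by
    intro r h0 h1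
    have := geom_sum_Ico_le_of_lt_one (m := 0) (n := L) h0 h1
    rw [pow_zero, ← Finset.range_eq_Ico] at this
    exact this
  have hs : ∑ l ∈ Finset.range L, ∑ J ∈ Finset.range J₀,
      ex (fun z => ‖z‖) (seg (IsLev l) (2 ^ J) (2 ^ (J + 1)) 0 T) 0 ≤
      (C₀ + 1) * (K₁ + K₂ * A) := by
    refine (Finset.sum_le_sum fun l _ => hin l).trans ?_
    rw [← Finset.mul_sum, Finset.sum_add_distrib, ← Finset.mul_sum, ← Finset.mul_sum]
    refine mul_le_mul_of_nonneg_left (add_le_add ?_ ?_) (by linarith)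
    · exact (mul_le_mul_of_nonneg_left (hgeom r₁ hr₁0.le hr₁1)
        (div_nonneg (by linarith) (by linarith))).trans (le_of_eq (by rw [hK₁]; ring))
    · exact (mul_le_mul_of_nonneg_left (hgeom r₂ hr₂0.le hr₂1)
        (mul_nonneg (mul_nonneg (by positivity) (div_nonneg hr₁0.le (by linarith))) hA0)).trans
        (le_of_eq (by rw [hK₂]; ring))
  have hbig := big_le_cost (by linarith : (1 : ℝ) ≤ q) T
  have e1 : 0 ≤ (C₀ + 1) * K₁ * A := by positivity
  have e2 : 0 ≤ (C₀ + 1) * K₂ := by positivity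
  linarith

end BTree

end Vale.Agent.P125
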